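import Mathlib

set_option autoImplicit false

namespace Crest.Agent.H0141

open Finset

/-- uniform average over a finite type -/
noncomputable def avg {Ω : Type} [Fintype Ω] (f : Ω → ℝ) : ℝ := (∑ ω, f ω) / Fintype.card Ω

open Classical in
/-- indicator of a proposition -/
noncomputable def ind (p : Prop) : ℝ := if p then 1 else 0

lemma ind_nonneg (p : Prop) : 0 ≤ ind p := by unfold ind; split_ifs <;> norm_num
lemma ind_le_one (p : Prop) : ind p ≤ 1 := by unfold ind; split_ifs <;> norm_num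
lemma ind_of_true {p : Prop} (h : p) : ind p = 1 := by simp [ind, h]
lemma ind_of_false {p : Prop} (h : ¬ p) : ind p = 0 := by simp [ind, h]
lemma ind_not (p : Prop) : ind (¬ p) = 1 - ind p := by
  by_cases h : p <;> simp [ind, h]
lemma ind_mono {p r : Prop} (h : p → r) : ind p ≤ ind r := by
  by_cases hp : p
  · simp [ind, hp, h hp]
  · rw [ind_of_false hp]; exact ind_nonneg r
lemma ind_le_of {p : Prop} {a : ℝ} (h0 : 0 ≤ a) (h1 : p → 1 ≤ a) : ind p ≤ a := by
  by_cases hp : p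
  · rw [ind_of_true hp]; exact h1 hp
  · rw [ind_of_false hp]; exact h0

section
variable {Ω : Type} [Fintype Ω]

lemma avg_mono {f g : Ω → ℝ} (h : ∀ ω, f ω ≤ g ω) : avg f ≤ avg g := by
  unfold avg
  exact div_le_div_of_nonneg_right (Finset.sum_le_sum fun ω _ => h ω) (Nat.cast_nonneg _)

lemma avg_add (f g : Ω → ℝ) : avg (fun ω => f ω + g ω) = avg f + avg g := by
  unfold avg; rw [Finset.sum_add_distrib, add_div]

lemma avg_sub (f g : Ω → ℝ) : avg (fun ω => f ω - g ω) = avg f - avg g := by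
  unfold avg; rw [Finset.sum_sub_distrib, sub_div]

lemma avg_mul_left (c : ℝ) (f : Ω → ℝ) : avg (fun ω => c * f ω) = c * avg f := by
  unfold avg; rw [← Finset.mul_sum, mul_div_assoc]

lemma avg_sum {ι : Type} (s : Finset ι) (f : ι → Ω → ℝ) :
    avg (fun ω => ∑ i ∈ s, f i ω) = ∑ i ∈ s, avg (f i) := by
  unfold avg; rw [Finset.sum_comm, Finset.sum_div]

lemma avg_const [Nonempty Ω] (c : ℝ) : avg (fun _ : Ω => c) = c := by
  unfold avg
  have : (Fintype.card Ω : ℝ) ≠ 0 := by exact_mod_cast Fintype.card_ne_zero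
  simp only [Finset.sum_const, Finset.card_univ, nsmul_eq_mul]
  field_simp

lemma avg_nonneg {f : Ω → ℝ} (h : ∀ ω, 0 ≤ f ω) : 0 ≤ avg f := by
  unfold avg
  exact div_nonneg (Finset.sum_nonneg fun ω _ => h ω) (Nat.cast_nonneg _)

lemma exists_le_avg [Nonempty Ω] (f : Ω → ℝ) : ∃ ω, f ω ≤ avg f := by
  by_contra h
  push Not at h
  have h1 : ∑ _ω : Ω, avg f < ∑ ω, f ω :=
    Finset.sum_lt_sum_of_nonempty Finset.univ_nonempty fun ω _ => h ω
  have : (0 : ℝ) < Fintype.card Ω := by exact_mod_cast Fintype.card_pos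
  simp only [Finset.sum_const, Finset.card_univ, nsmul_eq_mul] at h1
  unfold avg at h1
  rw [mul_div_cancel₀ _ this.ne'] at h1
  exact lt_irrefl _ h1

end

lemma avg_prod {Ω₁ Ω₂ : Type} [Fintype Ω₁] [Fintype Ω₂] (f : Ω₁ × Ω₂ → ℝ) :
    avg f = avg (fun a => avg (fun b => f (a, b))) := by
  unfold avg
  rw [Fintype.sum_prod_type, Fintype.card_prod, ← Finset.sum_div, div_div]
  push_cast
  ring

lemma avg_bool (f : Bool → ℝ) : avg f = (f true + f false) / 2 := by
  unfold avg; simp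

lemma avg_pi {κ Ω : Type} [Fintype κ] [DecidableEq κ] [Fintype Ω] (g : κ → Ω → ℝ) :
    avg (fun ω : κ → Ω => ∏ k, g k (ω k)) = ∏ k, avg (g k) := by
  unfold avg
  rw [Finset.prod_div_distrib, Finset.prod_univ_sum]
  simp

lemma avg_pi_inj {ι κ Ω : Type} [Fintype ι] [Fintype κ] [DecidableEq κ] [Fintype Ω] [Nonempty Ω]
    (e : ι → κ) (he : Function.Injective e) (g : ι → Ω → ℝ) :
    avg (fun ω : κ → Ω => ∏ i, g i (ω (e i))) = ∏ i, avg (g i) := by
  have h1 : ∀ ω : κ → Ω, ∏ i, g i (ω (e i)) =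
      ∏ k, (Function.extend e g (fun _ _ => 1) k) (ω k) := by
    intro ω
    refine Fintype.prod_of_injective e he _ _ ?_ ?_
    · intro k hk
      rw [Function.extend_apply' _ _ _ (by simpa using hk)]
    · intro i
      rw [he.extend_apply]
  simp_rw [h1]
  rw [avg_pi]
  symm
  refine Fintype.prod_of_injective e he _ _ ?_ ?_
  · intro k hk
    rw [Function.extend_apply' _ _ _ (by simpa using hk)]
    exact avg_const 1
  · intro i
    rw [he.extend_apply]

lemma avg_pi_eval {κ Ω : Type} [Fintype κ] [DecidableEq κ] [Fintype Ω] [Nonempty Ω]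
    (c : κ) (g : Ω → ℝ) : avg (fun ω : κ → Ω => g (ω c)) = avg g := by
  have := avg_pi_inj (ι := Unit) (fun _ => c) (fun _ _ _ => rfl) (fun _ => g)
  simpa using this

lemma avg_pi_opt {ι κ Ω : Type} [Fintype ι] [Fintype κ] [DecidableEq κ] [Fintype Ω] [Nonempty Ω]
    (c : κ) (e : ι → κ) (he : Function.Injective e) (hc : ∀ i, e i ≠ c)
    (g0 : Ω → ℝ) (g : ι → Ω → ℝ) :
    avg (fun ω : κ → Ω => g0 (ω c) * ∏ i, g i (ω (e i))) = avg g0 * ∏ i, avg (g i) := by
  have hinj : Function.Injective (fun o : Option ι => o.elim c e) := by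
    intro a b hab
    cases a <;> cases b
    · rfl
    · exact absurd hab.symm (hc _)
    · exact absurd hab (hc _)
    · simp only [Option.elim] at hab; rw [he hab]
  have := avg_pi_inj (fun o : Option ι => o.elim c e) hinj (fun o => o.elim g0 g)
  simpa [Fintype.prod_option] using this

lemma avg_snd_fst {A B : Type} [Fintype A] [Fintype B] [Nonempty B] (f : A → ℝ) :
    avg (fun p : A × B => f p.1) = avg f := by
  rw [avg_prod]; simp only [avg_const]

lemma avg_snd_snd {A B : Type} [Fintype A] [Fintype B] [Nonempty A] (f : B → ℝ) :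
    avg (fun p : A × B => f p.2) = avg f := by
  rw [avg_prod]; simp only [avg_const]

/-- average over a fair mixture -/
lemma avg_mix {A B : Type} [Fintype A] [Fintype B] [Nonempty A] [Nonempty B]
    (f : A → ℝ) (g : B → ℝ) :
    avg (fun p : Bool × A × B => if p.1 = true then f p.2.1 else g p.2.2) = (avg f + avg g) / 2 := by
  rw [avg_prod, avg_bool]
  simp only [if_true, Bool.false_eq_true, if_false]
  rw [avg_snd_fst, avg_snd_snd]

lemma floor_eq_of_mul {a b : ℝ} {m : ℕ} (hm : 0 < m) (h : ⌊a * m⌋ = ⌊b * m⌋) : ⌊a⌋ = ⌊b⌋ := by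
  have hm' : (m : ℝ) ≠ 0 := by exact_mod_cast hm.ne'
  have h1 : ⌊a⌋ = ⌊a * m⌋ / m := by rw [← Int.floor_div_natCast, mul_div_cancel_right₀ _ hm']
  have h2 : ⌊b⌋ = ⌊b * m⌋ / m := by rw [← Int.floor_div_natCast, mul_div_cancel_right₀ _ hm']
  rw [h1, h2, h]

lemma floor_shift {a b : ℝ} (c : ℤ) (m : ℕ) (h : ⌊a * m⌋ = ⌊b * m⌋) :
    ⌊(a - c) * m⌋ = ⌊(b - c) * m⌋ := by
  have h1 : ∀ t : ℝ, (t - c) * m = t * m - ((c * m : ℤ) : ℝ) := by intro t; push_cast; ring
  rw [h1, h1, Int.floor_sub_intCast, Int.floor_sub_intCast, h]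

end Crest.Agent.H0141
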