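import Crest.Agent.H0141.Iter

set_option autoImplicit false

namespace Crest.Agent.H0141

open Set MeasureTheory Filter Topology

lemma vol_cond (p : Prop) (I : Set ℝ) {a : ℝ} (h : volume I ≤ ENNReal.ofReal a) :
    volume {x | p ∧ x ∈ I} ≤ ENNReal.ofReal (a * ind p) := by
  by_cases hp : p
  · rw [ind_of_true hp]; simpa [hp] using h
  · simp [hp]

lemma mem_of_floor {K : ℕ} (hK : 0 < K) {y : ℝ} {i : Fin K} (h : ⌊y * K⌋ = ((i : ℕ) : ℤ)) :
    y ∈ Ico (0 : ℝ) 1 := by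
  have hK' : (0 : ℝ) < K := by exact_mod_cast hK
  have h1 := frac_mem h
  have h2 : ((i : ℕ) : ℝ) + 1 ≤ K := by exact_mod_cast i.2
  have h3 : (0 : ℝ) ≤ (i : ℕ) := Nat.cast_nonneg _
  constructor
  · by_contra hy
    push Not at hy
    nlinarith [h1.1]
  · by_contra hy
    push Not at hy
    nlinarith [h1.2]

lemma exists_V0 {q : ℝ} (hq : q ∈ Ioo (0 : ℝ) 1) {ε : ℝ} (hε : 0 < ε) :
    ∃ V : Set ℝ, volume V ≤ ENNReal.ofReal ε ∧ ∀ x ∈ Ico (0 : ℝ) 1, x ∉ V → ∀ s : ℝ, 0 < s →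
      ∃ n : ℤ, x + s * q ^ n ∈ V ∧ s * q ^ n ≤ 1 := by
  obtain ⟨M, hM⟩ := exists_nat_gt (9 / ε)
  have hM' : (0 : ℝ) < M := lt_trans (by positivity) hM
  have hM0 : 0 < M := by exact_mod_cast hM'
  have hMε : 3 * (1 / M : ℝ) ≤ ε / 3 := by
    rw [div_lt_iff₀ hε] at hM
    rw [mul_one_div, div_le_iff₀ hM']; linarith
  obtain ⟨S, X, hX, hS⟩ := good_all hM0 hq (ε := ε / 3) (by positivity)
  have hK' : (0 : ℝ) < S.K := by exact_mod_cast S.Kpos
  have hgrid : ∀ i : Fin S.K, ⌊((i : ℕ) : ℝ) / S.K * S.K⌋ = ((i : ℕ) : ℤ) := by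
    intro i
    rw [div_mul_cancel₀ _ hK'.ne']; simp
  have hrep : ∀ i : Fin S.K, ∃ y : ℝ, ⌊y * S.K⌋ = ((i : ℕ) : ℤ) ∧
      ((∃ z : ℝ, ⌊z * S.K⌋ = ((i : ℕ) : ℤ) ∧ z ∉ X) → y ∉ X) := by
    intro i
    by_cases h : ∃ z : ℝ, ⌊z * S.K⌋ = ((i : ℕ) : ℤ) ∧ z ∉ X
    · obtain ⟨z, h1, h2⟩ := h
      exact ⟨z, h1, fun _ => h2⟩
    · exact ⟨_, hgrid i, fun h' => absurd h' h⟩
  choose y hy1 hy2 using hrep
  obtain ⟨ω, hω⟩ := exists_le_avg (fun ω : S.Ω =>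
    ∑ i : Fin S.K, (3 / S.K) * ind (((i : ℕ) : ℝ) / S.K ∈ S.U ω) +
    ∑ i : Fin S.K, (1 / S.K) * ind (y i ∉ X ∧ S.alive q ω (y i)))
  rw [avg_add, avg_sum, avg_sum] at hω
  have h1 : ∑ i : Fin S.K, avg (fun ω => (3 / S.K) * ind (((i : ℕ) : ℝ) / S.K ∈ S.U ω)) =
      3 * (1 / M) := by
    have : ∀ i : Fin S.K, avg (fun ω => (3 / S.K) * ind (((i : ℕ) : ℝ) / S.K ∈ S.U ω)) =
        3 / S.K * (1 / M) := by
      intro i
      rw [avg_mul_left, S.marg _ (mem_of_floor S.Kpos (hgrid i))]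
    simp only [this, Finset.sum_const, Finset.card_univ, Fintype.card_fin, nsmul_eq_mul]
    field_simp
  have h2 : ∑ i : Fin S.K, avg (fun ω => (1 / S.K) * ind (y i ∉ X ∧ S.alive q ω (y i))) ≤
      ε / 3 := by
    have : ∀ i : Fin S.K, avg (fun ω => (1 / S.K) * ind (y i ∉ X ∧ S.alive q ω (y i))) ≤
        1 / S.K * (ε / 3) := by
      intro i
      rw [avg_mul_left]
      gcongr
      by_cases hi : y i ∈ X
      · have : ∀ ω, ind (y i ∉ X ∧ S.alive q ω (y i)) = 0 :=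
          fun ω => ind_of_false fun h => h.1 hi
        simp only [this]
        rw [avg_const]; positivity
      · exact (avg_mono fun ω => ind_mono And.right).trans
          (hS _ (mem_of_floor S.Kpos (hy1 i)) hi)
    refine (Finset.sum_le_sum fun i _ => this i).trans ?_
    simp only [Finset.sum_const, Finset.card_univ, Fintype.card_fin, nsmul_eq_mul]
    apply le_of_eq; field_simp
  refine ⟨X ∪ ((⋃ i : Fin S.K, {x | ((i : ℕ) : ℝ) / S.K ∈ S.U ω ∧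
      x ∈ Ioo ((((i : ℕ) : ℝ) - 1) / S.K) ((((i : ℕ) : ℝ) + 2) / S.K)}) ∪
    ⋃ i : Fin S.K, {x | (y i ∉ X ∧ S.alive q ω (y i)) ∧
      x ∈ Ico (((i : ℕ) : ℝ) / S.K) ((((i : ℕ) : ℝ) + 1) / S.K)}), ?_, ?_⟩
  · have hn1 : ∀ i : Fin S.K, 0 ≤ (3 / S.K) * ind (((i : ℕ) : ℝ) / S.K ∈ S.U ω) :=
      fun i => mul_nonneg (by positivity) (ind_nonneg _)
    have hn2 : ∀ i : Fin S.K, 0 ≤ (1 / S.K) * ind (y i ∉ X ∧ S.alive q ω (y i)) :=
      fun i => mul_nonneg (by positivity) (ind_nonneg _)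
    refine (measure_union_le _ _).trans ?_
    refine (add_le_add hX ((measure_union_le _ _).trans (add_le_add
      ((measure_iUnion_fintype_le _ _).trans (Finset.sum_le_sum fun i _ =>
        vol_cond _ _ (a := 3 / S.K) ?_))
      ((measure_iUnion_fintype_le _ _).trans (Finset.sum_le_sum fun i _ =>
        vol_cond _ _ (a := 1 / S.K) ?_))))).trans ?_
    · rw [Real.volume_Ioo]; apply le_of_eq; congr 1; ring
    · rw [Real.volume_Ico]; apply le_of_eq; congr 1; ring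
    · rw [← ENNReal.ofReal_sum_of_nonneg fun i _ => hn1 i,
        ← ENNReal.ofReal_sum_of_nonneg fun i _ => hn2 i,
        ← ENNReal.ofReal_add (Finset.sum_nonneg fun i _ => hn1 i) (Finset.sum_nonneg fun i _ => hn2 i),
        ← ENNReal.ofReal_add (by positivity)
          (add_nonneg (Finset.sum_nonneg fun i _ => hn1 i) (Finset.sum_nonneg fun i _ => hn2 i))]
      apply ENNReal.ofReal_le_ofReal
      linarith
  · intro x hx hxV s hs
    obtain ⟨i, hi⟩ := exists_cell S.Kpos hx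
    have hxX : x ∉ X := fun h => hxV (Or.inl h)
    have hyX : y i ∉ X := hy2 i ⟨x, hi, hxX⟩
    have hxi := frac_mem hi
    have hyi := frac_mem (hy1 i)
    have hna : ¬ S.alive q ω (y i) := by
      intro h
      refine hxV (Or.inr (Or.inr (mem_iUnion.2 ⟨i, ⟨hyX, h⟩, ?_, ?_⟩)))
      · rw [div_le_iff₀ hK']; linarith [hxi.1]
      · rw [lt_div_iff₀ hK']; linarith [hxi.2]
    have : ¬ S.surv q ω (y i) s := fun h => hna ⟨s, hs, h⟩
    unfold Str.surv at this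
    push Not at this
    obtain ⟨n, hn1, hn2⟩ := this
    have hy0 := mem_of_floor S.Kpos (hy1 i)
    have hpos : 0 < s * q ^ n := mul_pos hs (zpow_pos hq.1 n)
    obtain ⟨k, hk⟩ := exists_cell S.Kpos (u := y i + s * q ^ n) ⟨by linarith [hy0.1], hn2⟩
    have hkf := frac_mem hk
    refine ⟨n, Or.inr (Or.inl (mem_iUnion.2 ⟨k, ?_, ?_, ?_⟩)), by linarith [hy0.1]⟩
    · exact S.cell ω _ _ (hk.trans (hgrid k).symm) hn1
    · rw [div_lt_iff₀ hK']; linarith [hxi.1, hyi.2, hkf.1]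
    · rw [lt_div_iff₀ hK']; linarith [hxi.2, hyi.1, hkf.2]

lemma exists_V1 {q : ℝ} (hq : q ∈ Ioo (0 : ℝ) 1) {ε : ℝ} (hε : 0 < ε) {L : ℕ} (hL : 0 < L) :
    ∃ V : Set ℝ, volume V ≤ ENNReal.ofReal ε ∧ ∀ x ∈ Ico (0 : ℝ) 1, x ∉ V → ∀ s : ℝ, 0 < s →
      ∃ n : ℤ, x + s * q ^ n ∈ V ∧ s * q ^ n * L ≤ 1 := by
  have hL' : (0 : ℝ) < L := by exact_mod_cast hL
  obtain ⟨V, hV, h⟩ := exists_V0 hq hε
  refine ⟨tile L V, (vol_tile hL V).trans hV, fun x hx hxV s hs => ?_⟩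
  obtain ⟨c, hc⟩ := exists_cell hL hx
  obtain ⟨n, h1, h2⟩ := h _ (frac_mem hc) (fun h => hxV (mem_iUnion.2 ⟨c, h⟩)) (s * L)
    (by positivity)
  refine ⟨n, mem_iUnion.2 ⟨c, ?_⟩, by linarith⟩
  show (x + s * q ^ n) * L - (c : ℕ) ∈ V
  convert h1 using 1; ring

lemma exists_V2 {q : ℝ} (hq : q ∈ Ioo (0 : ℝ) 1) {ε : ℝ} (hε : 0 < ε) {L : ℕ} (hL : 0 < L) :
    ∃ V : Set ℝ, volume V ≤ ENNReal.ofReal ε ∧ ∀ x ∈ Ioo (0 : ℝ) 1, x ∉ V → ∀ s : ℝ, s ≠ 0 →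
      ∃ n : ℤ, x + s * q ^ n ∈ V ∧ |s| * q ^ n * L ≤ 1 := by
  obtain ⟨V, hV, h⟩ := exists_V1 hq (half_pos hε) hL
  refine ⟨V ∪ (fun x => 1 - x) ⁻¹' V, ?_, fun x hx hxV s hs => ?_⟩
  · refine (measure_union_le _ _).trans ?_
    have : volume ((fun x : ℝ => 1 - x) ⁻¹' V) = volume V := by
      have : (fun x : ℝ => 1 - x) ⁻¹' V =
          (fun x : ℝ => x * (-1)) ⁻¹' ((fun x : ℝ => x + 1) ⁻¹' V) := by
        ext x; simp [sub_eq_add_neg, add_comm]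
      rw [this, Real.volume_preimage_mul_right (by norm_num), measure_preimage_add_right]
      simp
    rw [this]
    refine (add_le_add hV hV).trans ?_
    rw [← ENNReal.ofReal_add (half_pos hε).le (half_pos hε).le, add_halves]
  · rcases lt_or_gt_of_ne hs with hs | hs
    · obtain ⟨n, h1, h2⟩ := h (1 - x) ⟨by linarith [hx.2], by linarith [hx.1]⟩
        (fun h => hxV (Or.inr h)) (-s) (by linarith)
      refine ⟨n, Or.inr ?_, by rwa [abs_of_neg hs]⟩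
      show 1 - (x + s * q ^ n) ∈ V
      convert h1 using 1; ring
    · obtain ⟨n, h1, h2⟩ := h x ⟨hx.1.le, hx.2⟩ (fun h => hxV (Or.inl h)) s hs
      exact ⟨n, Or.inl h1, by rwa [abs_of_pos hs]⟩

lemma exists_V3 {q : ℝ} (hq : q ∈ Ioo (0 : ℝ) 1) {ε : ℝ} (hε : 0 < ε) :
    ∃ W : Set ℝ, volume W ≤ ENNReal.ofReal ε ∧ ∀ x ∈ Ioo (0 : ℝ) 1, x ∉ W → ∀ s : ℝ, s ≠ 0 →
      ∃ n : ℕ, 1 ≤ n ∧ x + s * q ^ n ∈ W := by
  have h := fun j : ℕ => exists_V2 hq (ε := ε / 2 / 2 ^ j) (by positivity) (Nat.succ_pos j)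
  choose V hV h using h
  refine ⟨⋃ j, V j, ?_, fun x hx hxV s hs => ?_⟩
  · refine (measure_iUnion_le _).trans ((ENNReal.tsum_le_tsum hV).trans ?_)
    rw [← ENNReal.ofReal_tsum_of_nonneg (fun j => by positivity) (summable_geometric_two' ε),
      tsum_geometric_two' ε]
  · have hs' : 0 < |s| := abs_pos.2 hs
    obtain ⟨j, hj⟩ := exists_nat_gt (1 / |s|)
    obtain ⟨n, h1, h2⟩ := h j x hx (fun h => hxV (mem_iUnion.2 ⟨j, h⟩)) s hs
    have hn : 0 < n := by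
      by_contra hn
      push Not at hn
      have h3 : 1 ≤ q ^ n := one_le_zpow_of_nonpos₀ hq.1 hq.2.le hn
      rw [div_lt_iff₀ hs'] at hj
      push_cast at h2
      have h4 : (0 : ℝ) ≤ j := Nat.cast_nonneg j
      have h5 : |s| * 1 * (j + 1) ≤ |s| * q ^ n * (j + 1) := by gcongr
      nlinarith
    refine ⟨n.toNat, by omega, mem_iUnion.2 ⟨j, ?_⟩⟩
    rw [← zpow_natCast, Int.toNat_of_nonneg hn.le]
    exact h1

theorem main (q η : ℝ) (hq : q ∈ Set.Ioo 0 1) (hη : η ∈ Set.Ioo 0 1) :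
    ∃ E : Set ℝ, IsCompact E ∧ E ⊆ Set.Icc 0 1 ∧
      ENNReal.ofReal (1 - η) < MeasureTheory.volume E ∧
      ∀ x s : ℝ, s ≠ 0 → ∃ n : ℕ, 1 ≤ n ∧ x + s * q ^ n ∉ E := by
  obtain ⟨W, hW, h⟩ := exists_V3 hq (half_pos hη.1)
  have hW' : volume (W ∪ {0, 1}) < ENNReal.ofReal η := by
    refine (measure_union_le _ _).trans_lt ?_
    have : volume ({0, 1} : Set ℝ) = 0 := (Set.toFinite _).measure_zero _
    rw [this, add_zero]
    exact hW.trans_lt ((ENNReal.ofReal_lt_ofReal_iff hη.1).2 (half_lt_self hη.1))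
  obtain ⟨O, hWO, hO, hOη⟩ := Set.exists_isOpen_lt_of_lt _ _ hW'
  refine ⟨Icc 0 1 \ O, isCompact_Icc.diff hO, sdiff_subset, ?_, ?_⟩
  · by_contra hle
    push Not at hle
    have h1 : volume (Icc (0 : ℝ) 1) ≤ volume (Icc (0 : ℝ) 1 \ O) + volume O :=
      (measure_mono (subset_sdiff_union _ _)).trans (measure_union_le _ _)
    have h2 : volume (Icc (0 : ℝ) 1 \ O) + volume O < ENNReal.ofReal (1 - η) + ENNReal.ofReal η :=
      ENNReal.add_lt_add_of_le_of_lt (ne_top_of_le_ne_top ENNReal.ofReal_ne_top hle) hle hOη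
    rw [← ENNReal.ofReal_add (by linarith [hη.2]) hη.1.le] at h2
    have := h1.trans_lt h2
    simp at this
  · intro x s hs
    by_cases hx : x ∈ Icc 0 1 \ O
    · have h0 : x ≠ 0 := fun h => hx.2 (hWO (Or.inr (by simp [h])))
      have h1 : x ≠ 1 := fun h => hx.2 (hWO (Or.inr (by simp [h])))
      obtain ⟨n, hn, hW⟩ := h x ⟨lt_of_le_of_ne hx.1.1 h0.symm, lt_of_le_of_ne hx.1.2 h1⟩
        (fun h => hx.2 (hWO (Or.inl h))) s hs
      exact ⟨n, hn, fun h => h.2 (hWO (Or.inl hW))⟩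
    · have hcl : IsClosed (Icc (0 : ℝ) 1 \ O) := (isCompact_Icc.diff hO).isClosed
      have ht : Tendsto (fun n : ℕ => x + s * q ^ n) atTop (𝓝 x) := by
        have := ((tendsto_pow_atTop_nhds_zero_of_lt_one hq.1.le hq.2).const_mul s).const_add x
        simpa using this
      have := ht.eventually (hcl.isOpen_compl.mem_nhds hx)
      obtain ⟨n, h1, h2⟩ := (this.and (eventually_ge_atTop 1)).exists
      exact ⟨n, h2, h1⟩

end Crest.Agent.H0141
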