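import Crest.Agent.H0141.Step

set_option autoImplicit false

namespace Crest.Agent.H0141

open Set MeasureTheory Filter Topology

variable {η0 : ℝ}

lemma chain_iter {A : Str η0} (hη : η0 ≤ 1) {q : ℝ} (hq : q ∈ Ioo (0 : ℝ) 1) {XA : Set ℝ}
    {fA a : ℝ} (ha : 0 ≤ a) (hA : A.Fail q XA fA) (hXA : volume XA ≤ ENNReal.ofReal a)
    (J L : ℕ) (hL : 0 < L) (G : ℝ) (hG : q⁻¹ ^ (J + 1) / (1 - q) ≤ G) (r : ℕ)
    (hr : G * A.K + 1 ≤ r) (j : ℕ) :
    ∃ (S : Str η0) (X : Set ℝ), volume X ≤ ENNReal.ofReal (j * (G / L + a)) ∧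
      S.Chain q X ((1 - (1 / 2) ^ j) * fA) (j * (J * r)) ((1 / 2 * (1 - η0 / 2) ^ J) ^ j) := by
  have hL' : (0 : ℝ) < L := by exact_mod_cast hL
  have hG0 : 0 ≤ G := by
    refine le_trans ?_ hG
    have := hq.1
    have : 0 < 1 - q := by linarith [hq.2]
    positivity
  have hη' : 0 ≤ 1 - η0 / 2 := by linarith
  induction j with
  | zero => exact ⟨A, ∅, by simp, by simpa using chain_base A q⟩
  | succ j ih =>
    obtain ⟨S, X, hX, hS⟩ := ih
    refine ⟨step L hL A S, Ioo (1 - G / L) 1 ∪ tile L (XA ∪ X), ?_, ?_⟩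
    swap
    · have := chain_step hη hq hA hS (by positivity) J L hL G hG r hr
      convert this using 1 <;> ring
    · have hGL : 0 ≤ G / L := by positivity
      calc volume (Ioo (1 - G / L) 1 ∪ tile L (XA ∪ X))
          ≤ volume (Ioo (1 - G / L) 1) + volume (tile L (XA ∪ X)) := measure_union_le _ _
        _ ≤ ENNReal.ofReal (G / L) + (ENNReal.ofReal a + ENNReal.ofReal (j * (G / L + a))) := by
            gcongr
            · simp
            · exact (vol_tile hL _).trans ((measure_union_le _ _).trans (add_le_add hXA hX))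
        _ = _ := by
            rw [← ENNReal.ofReal_add ha (by positivity), ← ENNReal.ofReal_add hGL (by positivity)]
            congr 1; push_cast; ring

/-- failure at most `f`, off an exceptional set of outer measure at most `ε` -/
def Good (η0 q f ε : ℝ) : Prop :=
  ∃ (S : Str η0) (X : Set ℝ), volume X ≤ ENNReal.ofReal ε ∧ S.Fail q X f

lemma exists_J {C γ : ℝ} (hγ : 0 < γ) : ∃ J : ℕ, 1 ≤ J ∧ C * (J * (1 / 2) ^ J) ≤ γ := by
  have h := (tendsto_self_mul_const_pow_of_lt_one (r := (1 / 2 : ℝ)) (by norm_num) (by norm_num)).const_mul C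
  rw [mul_zero] at h
  obtain ⟨J, h1, h2⟩ := ((h.eventually (ge_mem_nhds hγ)).and (eventually_ge_atTop 1)).exists
  exact ⟨J, h2, h1⟩

lemma good_step (hη : η0 ≤ 1) {q : ℝ} (hq : q ∈ Ioo (0 : ℝ) 1) {H : ℕ}
    (hH : (1 - η0 / 2) ^ H ≤ q / 2) {f a γ : ℝ} (ha : 0 < a) (hγ : 0 < γ)
    (h : Good η0 q f a) : Good η0 q ((1 - (1 / 2) ^ H) * f + γ) (H * (2 * a)) := by
  obtain ⟨A, XA, hXA, hA⟩ := h
  have hq0 := hq.1
  have hq1 : 0 < 1 - q := by linarith [hq.2]
  have hη' : 0 ≤ 1 - η0 / 2 := by linarith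
  obtain ⟨J, hJ1, hJ⟩ := exists_J (C := H * (A.K / (q * (1 - q))) + 2 * H + 1) hγ
  set G : ℝ := q⁻¹ ^ (J + 1) / (1 - q) with hG
  have hG0 : 0 < G := by positivity
  obtain ⟨L, hL⟩ := exists_nat_gt (G / a)
  have hL' : (0 : ℝ) < L := lt_trans (by positivity) hL
  have hL0 : 0 < L := by exact_mod_cast hL'
  have hGL : G / L ≤ a := by
    rw [div_lt_iff₀ ha] at hL
    rw [div_le_iff₀ hL']; linarith
  obtain ⟨S, X, hX, hS⟩ := chain_iter hη hq ha.le hA hXA J L hL0 G le_rfl (⌈G * A.K⌉₊ + 1)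
    (by push_cast; linarith [Nat.le_ceil (G * A.K)]) H
  refine ⟨S, X, hX.trans (ENNReal.ofReal_le_ofReal (by gcongr; linarith)), ?_⟩
  intro x hx hxX
  refine (fail_of_chain hq hS x hx hxX).trans ?_
  gcongr
  refine le_trans ?_ hJ
  have h1 : (1 / 2 * (1 - η0 / 2) ^ J) ^ H ≤ (q / 2) ^ J := by
    calc (1 / 2 * (1 - η0 / 2) ^ J) ^ H ≤ ((1 - η0 / 2) ^ J) ^ H := by
          gcongr
          have : 0 ≤ (1 - η0 / 2) ^ J := by positivity
          linarith
      _ = ((1 - η0 / 2) ^ H) ^ J := by rw [← pow_mul, ← pow_mul, mul_comm]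
      _ ≤ _ := by gcongr
  have h2 : ((⌈G * A.K⌉₊ + 1 : ℕ) : ℝ) ≤ G * A.K + 2 := by
    push_cast
    have := Nat.ceil_lt_add_one (a := G * A.K) (by positivity)
    linarith
  have hJ1' : (1 : ℝ) ≤ J := by exact_mod_cast hJ1
  have hqJ : q ^ J ≤ 1 := pow_le_one₀ hq0.le hq.2.le
  have hqJ0 : 0 < q ^ J := by positivity
  have hGq : G * q ^ J = 1 / (q * (1 - q)) := by
    rw [hG, inv_pow, pow_succ]; field_simp
  calc (((H * (J * (⌈G * A.K⌉₊ + 1)) : ℕ) : ℝ) + 1) * (1 / 2 * (1 - η0 / 2) ^ J) ^ H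
      ≤ (H * (J * (G * A.K + 2)) + J) * (q / 2) ^ J := by
        gcongr
        rw [Nat.cast_mul, Nat.cast_mul]
        gcongr
    _ = (H * (A.K * (G * q ^ J)) + (2 * H + 1) * q ^ J) * (J * (1 / 2) ^ J) := by
        rw [div_pow, div_pow]; ring
    _ ≤ (H * (A.K * (G * q ^ J)) + (2 * H + 1) * 1) * (J * (1 / 2) ^ J) := by gcongr
    _ = _ := by rw [hGq]; ring

noncomputable def base (M : ℕ) (hM : 0 < M) : Str (1 / M : ℝ) :=
  haveI : Nonempty (Fin M) := ⟨⟨0, hM⟩⟩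
  { Ω := Fin M
    K := 1
    Kpos := one_pos
    U := fun ω => {_u | ω = ⟨0, hM⟩}
    cell := fun _ _ _ _ h => h
    marg := by
      intro u _
      unfold avg
      rw [Finset.sum_eq_single ⟨0, hM⟩]
      · simp [ind]
      · intro b _ hb
        exact ind_of_false hb
      · simp }

lemma good_all {M : ℕ} (hM : 0 < M) {q : ℝ} (hq : q ∈ Ioo (0 : ℝ) 1) {ε : ℝ} (hε : 0 < ε) :
    Good (1 / M) q ε ε := by
  have hM' : (1 : ℝ) ≤ M := by exact_mod_cast hM
  have hη : (1 / M : ℝ) ≤ 1 := by rw [div_le_one (by linarith)]; exact hM'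
  have hη0 : (0 : ℝ) < 1 / M := by positivity
  obtain ⟨H, hH⟩ := exists_pow_lt_of_lt_one (x := q / 2) (y := 1 - (1 / M : ℝ) / 2)
    (by linarith [hq.1]) (by linarith)
  have hθ0 : (0 : ℝ) ≤ 1 - (1 / 2) ^ H := by
    have : (1 / 2 : ℝ) ^ H ≤ 1 := pow_le_one₀ (by norm_num) (by norm_num)
    linarith
  have hθ1 : (1 : ℝ) - (1 / 2) ^ H < 1 := by
    have : (0 : ℝ) < (1 / 2) ^ H := by positivity
    linarith
  have mono : ∀ f f' a a' : ℝ, f ≤ f' → a ≤ a' → Good (1 / M) q f a → Good (1 / M) q f' a' := by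
    rintro f f' a a' h1 h2 ⟨S, X, hX, hS⟩
    exact ⟨S, X, hX.trans (ENNReal.ofReal_le_ofReal h2), fun x hx hxX => (hS x hx hxX).trans h1⟩
  have key : ∀ D : ℕ, ∀ ε : ℝ, 0 < ε → Good (1 / M) q ((1 - (1 / 2) ^ H) ^ D + ε) ε := by
    intro D
    induction D with
    | zero =>
      intro ε hε
      refine ⟨base M hM, ∅, by simp, fun x _ _ => ?_⟩
      calc _ ≤ avg (fun _ : (base M hM).Ω => (1 : ℝ)) := avg_mono fun ω => ind_le_one _
        _ = 1 := avg_const 1
        _ ≤ _ := by simp [hε.le]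
    | succ D ih =>
      intro ε hε
      have ha : 0 < ε / (2 * H + 2) := by positivity
      have h1 := good_step hη hq hH.le ha (half_pos hε) (ih _ ha)
      have h2 : ε / (2 * H + 2) ≤ ε / 2 := by
        gcongr; linarith [(Nat.cast_nonneg H : (0 : ℝ) ≤ H)]
      refine mono _ _ _ _ ?_ ?_ h1
      · rw [pow_succ]; nlinarith
      · have : (H : ℝ) * (2 * (ε / (2 * H + 2))) = ε * (2 * H / (2 * H + 2)) := by ring
        rw [this]
        have : (2 * H / (2 * H + 2) : ℝ) ≤ 1 := by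
          rw [div_le_one (by positivity)]; linarith
        nlinarith
  obtain ⟨D, hD⟩ := exists_pow_lt_of_lt_one (half_pos hε) hθ1
  exact mono _ _ _ _ (by linarith) (by linarith) (key D _ (half_pos hε))

end Crest.Agent.H0141
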