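import Crest.Agent.H0141.Str

set_option autoImplicit false

namespace Crest.Agent.H0141

open Set MeasureTheory

variable {η0 : ℝ}

/-- periodic rescaled copies -/
def tile (L : ℕ) (Y : Set ℝ) : Set ℝ := ⋃ c : Fin L, {x : ℝ | x * L - (c : ℕ) ∈ Y}

lemma vol_tile {L : ℕ} (hL : 0 < L) (Y : Set ℝ) : volume (tile L Y) ≤ volume Y := by
  have hL' : (0 : ℝ) < L := by exact_mod_cast hL
  have h1 : ∀ c : Fin L, volume {x : ℝ | x * L - (c : ℕ) ∈ Y} = ENNReal.ofReal |(L : ℝ)⁻¹| * volume Y := by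
    intro c
    have : {x : ℝ | x * L - (c : ℕ) ∈ Y} =
        (fun x : ℝ => x * L) ⁻¹' ((fun x : ℝ => x + (-((c : ℕ) : ℝ))) ⁻¹' Y) := by
      ext x; simp [sub_eq_add_neg]
    rw [this, Real.volume_preimage_mul_right hL'.ne', measure_preimage_add_right]
  refine (measure_iUnion_fintype_le _ _).trans ?_
  simp only [h1, Finset.sum_const, Finset.card_univ, Fintype.card_fin, nsmul_eq_mul]
  rw [← mul_assoc, abs_of_pos (inv_pos.2 hL'), ← ENNReal.ofReal_natCast,
    ← ENNReal.ofReal_mul hL'.le, mul_inv_cancel₀ hL'.ne']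
  simp

lemma sum_eq_each {J : ℕ} {a a' : ℕ} {b b' : Fin J → ℕ} (ha : a ≤ a') (hb : ∀ i, b i ≤ b' i)
    (h : a + ∑ i, b i = a' + ∑ i, b' i) : a = a' ∧ ∀ i, b i = b' i := by
  have h1 : ∑ i, b i ≤ ∑ i, b' i := Finset.sum_le_sum fun i _ => hb i
  have h2 : ∑ i, b i = ∑ i, b' i := by omega
  refine ⟨by omega, fun i => ?_⟩
  exact (Finset.sum_eq_sum_iff_of_le (fun i _ => hb i)).1 h2 i (Finset.mem_univ i)

lemma chain_step {A S : Str η0} (hη : η0 ≤ 1) {q : ℝ} (hq : q ∈ Ioo (0 : ℝ) 1) {XA X : Set ℝ}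
    {fA β ρ : ℝ} {B : ℕ} (hA : A.Fail q XA fA) (hS : S.Chain q X β B ρ) (hρ0 : 0 ≤ ρ)
    (J L : ℕ) (hL : 0 < L) (G : ℝ) (hG : q⁻¹ ^ (J + 1) / (1 - q) ≤ G) (r : ℕ)
    (hr : G * A.K + 1 ≤ r) :
    (step L hL A S).Chain q (Ioo (1 - G / L) 1 ∪ tile L (XA ∪ X)) ((fA + β) / 2) (B + J * r)
      (ρ / 2 * (1 - η0 / 2) ^ J) := by
  intro x hx hX σ hσ
  have hL' : (0 : ℝ) < L := by exact_mod_cast hL
  have hK' : (0 : ℝ) < A.K := by exact_mod_cast A.Kpos
  have hq0 := hq.1
  have hq1 : 0 < 1 - q := by linarith [hq.2]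
  obtain ⟨c, hc⟩ := exists_cell hL hx
  have hx' := frac_mem hc
  have hxg : x ≤ 1 - G / L := by
    by_contra h
    exact hX (Or.inl ⟨lt_of_not_ge h, hx.2⟩)
  have hXA : x * L - (c : ℕ) ∉ XA := fun h => hX (Or.inr (mem_iUnion.2 ⟨c, Or.inl h⟩))
  have hX' : x * L - (c : ℕ) ∉ X := fun h => hX (Or.inr (mem_iUnion.2 ⟨c, Or.inr h⟩))
  obtain ⟨Bad', F', hmono, hB, hβ, hρ⟩ := hS _ hx' hX' (σ * L) (by positivity)
  obtain ⟨n0, hn1, hn2⟩ := exists_norm hq (s := σ * L * (1 - q)) (by positivity)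
  have hqn : 0 < q ^ n0 := zpow_pos hq0 n0
  have hq1' : 1 ≤ q⁻¹ := (one_le_inv₀ hq0).2 hq.2.le
  have hzp : ∀ i : ℕ, q ^ (n0 - (i : ℤ)) = q ^ n0 * q⁻¹ ^ i := by
    intro i; rw [zpow_sub₀ hq0.ne', zpow_natCast, div_eq_mul_inv, inv_pow]
  have hsL : ∀ s ∈ Ico σ (σ / q), s * L ∈ Ico (σ * L) (σ * L / q) := by
    intro s hs
    refine ⟨mul_le_mul_of_nonneg_right hs.1 hL'.le, ?_⟩
    have := mul_lt_mul_of_pos_right hs.2 hL'
    calc s * L < σ / q * L := this
      _ = σ * L / q := by ring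
  have hlow : ∀ s ∈ Ico σ (σ / q), ∀ i : ℕ, 1 ≤ s * q ^ (n0 - (i : ℤ)) * L * (1 - q) := by
    intro s hs i
    rw [hzp]
    have h1 : 1 ≤ q⁻¹ ^ i := one_le_pow₀ hq1'
    have h2 : σ * L * (1 - q) * q ^ n0 ≤ s * L * (1 - q) * q ^ n0 := by
      gcongr; exact hs.1
    have h3 : 0 ≤ s * L * (1 - q) * q ^ n0 := by linarith
    nlinarith
  have hupp : ∀ s ∈ Ico σ (σ / q), ∀ i : Fin J, s * q ^ (n0 - ((i : ℕ) : ℤ)) * L < G := by
    intro s hs i
    rw [hzp]
    refine lt_of_lt_of_le ?_ hG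
    rw [lt_div_iff₀ hq1]
    have h1 : q⁻¹ ^ (i : ℕ) * q⁻¹ * q⁻¹ ≤ q⁻¹ ^ (J + 1) := by
      rw [← pow_succ, ← pow_succ]
      exact pow_le_pow_right₀ hq1' (by have := i.2; omega)
    have hp : 0 < q⁻¹ ^ (i : ℕ) := by positivity
    have h2 : s * L * (1 - q) * q ^ n0 < σ / q * L * (1 - q) * q ^ n0 := by
      gcongr; exact hs.2
    have h3 : σ / q * L * (1 - q) * q ^ n0 < q⁻¹ * q⁻¹ := by
      have : σ / q * L * (1 - q) * q ^ n0 = q⁻¹ * (σ * L * (1 - q) * q ^ n0) := by ring
      rw [this]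
      rw [one_div] at hn2
      gcongr
    calc s * (q ^ n0 * q⁻¹ ^ (i : ℕ)) * L * (1 - q) = q⁻¹ ^ (i : ℕ) * (s * L * (1 - q) * q ^ n0) := by
          ring
      _ < q⁻¹ ^ (i : ℕ) * (q⁻¹ * q⁻¹) := mul_lt_mul_of_pos_left (h2.trans h3) hp
      _ ≤ _ := by rw [← mul_assoc]; exact h1
  have hlow1 : ∀ s ∈ Ico σ (σ / q), ∀ i : ℕ, 1 ≤ s * q ^ (n0 - (i : ℤ)) * L := by
    intro s hs i
    have h1 := hlow s hs i
    have h2 : 0 < s * q ^ (n0 - (i : ℤ)) * L := by
      have := hσ.trans_le hs.1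
      positivity
    nlinarith
  have hin : ∀ s ∈ Ico σ (σ / q), ∀ i : Fin J, x + s * q ^ (n0 - ((i : ℕ) : ℤ)) ∈ Ico (0 : ℝ) 1 := by
    intro s hs i
    have h2 : 0 < s * q ^ (n0 - ((i : ℕ) : ℤ)) := by
      have := hσ.trans_le hs.1
      positivity
    have h3 : s * q ^ (n0 - ((i : ℕ) : ℤ)) < G / L := by
      rw [lt_div_iff₀ hL']; exact hupp s hs i
    constructor <;> linarith [hx.1]
  set T : ℝ → Fin J → ℤ := fun s i => ⌊(x + s * q ^ (n0 - ((i : ℕ) : ℤ))) * L * A.K⌋ with hT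
  have hTlow : ∀ s ∈ Ico σ (σ / q), ∀ i, ⌊x * L * A.K⌋ ≤ T s i := by
    intro s hs i
    apply Int.floor_le_floor
    have := hlow1 s hs i
    nlinarith
  have hTupp : ∀ s ∈ Ico σ (σ / q), ∀ i, T s i - ⌊x * L * A.K⌋ ≤ r := by
    intro s hs i
    have h1 := Int.floor_le ((x + s * q ^ (n0 - ((i : ℕ) : ℤ))) * L * A.K)
    have h2 := Int.lt_floor_add_one (x * L * A.K)
    have h3 := mul_lt_mul_of_pos_right (hupp s hs i) hK'
    have : ((T s i - ⌊x * L * A.K⌋ : ℤ) : ℝ) ≤ ((r : ℤ) : ℝ) := by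
      push_cast
      simp only [hT]
      nlinarith
    exact_mod_cast this
  have hTmono : ∀ s s', s ≤ s' → ∀ i, T s i ≤ T s' i := by
    intro s s' hss i
    apply Int.floor_le_floor
    have : 0 < q ^ (n0 - ((i : ℕ) : ℤ)) := zpow_pos hq0 _
    gcongr
  refine ⟨fun ω => if (ω c).1 = true then A.alive q (ω c).2.1 (x * L - (c : ℕ)) else Bad' (ω c).2.2,
    fun s => F' (s * L) + ∑ i, (T s i - ⌊x * L * A.K⌋).toNat, ?_, ?_, ?_, ?_⟩
  · intro s hs s' hs' hss
    apply add_le_add (hmono (hsL s hs) (hsL s' hs') (mul_le_mul_of_nonneg_right hss hL'.le))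
    refine Finset.sum_le_sum fun i _ => ?_
    have := hTmono s s' hss i
    omega
  · intro s hs
    apply add_le_add (hB _ (hsL s hs))
    calc ∑ i, (T s i - ⌊x * L * A.K⌋).toNat ≤ ∑ _i : Fin J, r := by
          refine Finset.sum_le_sum fun i _ => ?_
          have := hTupp s hs i
          omega
      _ = J * r := by simp
  · have h1 : ∀ p : Bool × A.Ω × S.Ω,
        ind (if p.1 = true then A.alive q p.2.1 (x * L - (c : ℕ)) else Bad' p.2.2) =
        if p.1 = true then ind (A.alive q p.2.1 (x * L - (c : ℕ))) else ind (Bad' p.2.2) := by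
      intro p; split_ifs <;> rfl
    have h2 := avg_pi_eval (κ := Fin L) c (fun p : Bool × A.Ω × S.Ω =>
      ind (if p.1 = true then A.alive q p.2.1 (x * L - (c : ℕ)) else Bad' p.2.2))
    refine h2.trans_le ?_
    simp_rw [h1]
    rw [avg_mix (fun a => ind (A.alive q a (x * L - (c : ℕ)))) (fun b => ind (Bad' b))]
    have := hA _ hx' hXA
    linarith
  · intro v
    have hη' : 0 ≤ 1 - η0 / 2 := by linarith
    by_cases hv : ∃ s0 ∈ Ico σ (σ / q), F' (s0 * L) + ∑ i, (T s0 i - ⌊x * L * A.K⌋).toNat = v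
    swap
    · refine le_trans (avg_mono (g := fun _ => 0) fun ω => ?_) ?_
      · refine (ind_of_false ?_).le
        rintro ⟨-, s, hs, hF, -⟩
        exact hv ⟨s, hs, hF⟩
      · rw [avg_const]; positivity
    obtain ⟨s0, hs0, hv⟩ := hv
    choose e he using fun i => exists_cell hL (hin s0 hs0 i)
    have hlt : ∀ i j : Fin J, i < j → e i ≠ e j := by
      intro i j hij hee
      have h1 := hlow s0 hs0 j
      have h2 : q ^ (n0 - ((i : ℕ) : ℤ)) ≤ q * q ^ (n0 - ((j : ℕ) : ℤ)) := by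
        rw [← zpow_one_add₀ hq0.ne']
        apply zpow_le_zpow_right_of_le_one₀ hq0 hq.2.le
        have : (i : ℕ) < j := hij
        omega
      have hs0p := hσ.trans_le hs0.1
      have h3 : (x + s0 * q ^ (n0 - ((i : ℕ) : ℤ))) * L + 1 ≤ (x + s0 * q ^ (n0 - ((j : ℕ) : ℤ))) * L := by
        have : s0 * L * q ^ (n0 - ((i : ℕ) : ℤ)) ≤ s0 * L * (q * q ^ (n0 - ((j : ℕ) : ℤ))) := by
          gcongr
        nlinarith
      have h4 := Int.floor_le_floor h3
      rw [Int.floor_add_one, he i, he j, hee] at h4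
      omega
    have hinj : Function.Injective e := by
      intro i j hij
      rcases lt_trichotomy i j with h | h | h
      · exact absurd hij (hlt i j h)
      · exact h
      · exact absurd hij.symm (hlt j i h)
    have hne : ∀ i, e i ≠ c := by
      intro i hee
      have h1 := hlow1 s0 hs0 i
      have h3 : x * L + 1 ≤ (x + s0 * q ^ (n0 - ((i : ℕ) : ℤ))) * L := by nlinarith
      have h4 := Int.floor_le_floor h3
      rw [Int.floor_add_one, he i, hc, hee] at h4
      omega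
    set g0 : Bool × A.Ω × S.Ω → ℝ := fun p => if p.1 = true then (fun _ => (0 : ℝ)) p.2.1 else
      (fun b => ind (¬ Bad' b ∧ ∃ s ∈ Ico (σ * L) (σ * L / q), F' s = F' (s0 * L) ∧
        S.surv q b (x * L - (c : ℕ)) s)) p.2.2 with hg0
    set g : Fin J → Bool × A.Ω × S.Ω → ℝ := fun i p => if p.1 = true then
      (fun a => ind (¬ ((x + s0 * q ^ (n0 - ((i : ℕ) : ℤ))) * L - (e i : ℕ) ∈ A.U a))) p.2.1 else
      (fun _ => (1 : ℝ)) p.2.2 with hg
    have hg0a : avg g0 ≤ ρ / 2 := by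
      have h1 : avg g0 = _ := avg_mix (fun _ : A.Ω => (0 : ℝ))
        (fun b => ind (¬ Bad' b ∧ ∃ s ∈ Ico (σ * L) (σ * L / q), F' s = F' (s0 * L) ∧
          S.surv q b (x * L - (c : ℕ)) s))
      rw [h1, avg_const]
      have := hρ (F' (s0 * L))
      linarith
    have hga : ∀ i, avg (g i) = 1 - η0 / 2 := by
      intro i
      rw [hg]
      simp only []
      rw [avg_mix (fun a => ind (¬ ((x + s0 * q ^ (n0 - ((i : ℕ) : ℤ))) * L - (e i : ℕ) ∈ A.U a)))
        (fun _ => (1 : ℝ)), avg_const]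
      simp_rw [ind_not]
      rw [avg_sub, avg_const, A.marg _ (frac_mem (he i))]
      ring
    have hprod := avg_pi_opt c e hinj hne g0 g
    refine le_trans (avg_mono (g := fun ω => g0 (ω c) * ∏ i, g i (ω (e i))) fun ω => ?_) ?_
    · have hg0n : ∀ p, 0 ≤ g0 p := by
        intro p; simp only [hg0]; split_ifs
        · exact le_rfl
        · exact ind_nonneg _
      have hgn : ∀ i p, 0 ≤ g i p := by
        intro i p; simp only [hg]; split_ifs
        · exact ind_nonneg _
        · exact zero_le_one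
      apply ind_le_of (mul_nonneg (hg0n _) (Finset.prod_nonneg fun i _ => hgn _ _))
      rintro ⟨hb, s, hs, hF, hsurv⟩
      have hsp := hσ.trans_le hs.1
      beta_reduce at hb hF
      have hloc := step_local hq0 hsp hc hsurv
      have heq : F' (s * L) = F' (s0 * L) ∧ ∀ i, T s i = T s0 i := by
        rw [← hv] at hF
        rcases le_total s s0 with h | h
        · obtain ⟨h1, h2⟩ := sum_eq_each
            (hmono (hsL s hs) (hsL s0 hs0) (mul_le_mul_of_nonneg_right h hL'.le))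
            (fun i => by have := hTmono s s0 h i; omega) hF
          refine ⟨h1, fun i => ?_⟩
          have := h2 i
          have := hTlow s hs i
          have := hTlow s0 hs0 i
          omega
        · obtain ⟨h1, h2⟩ := sum_eq_each
            (hmono (hsL s0 hs0) (hsL s hs) (mul_le_mul_of_nonneg_right h hL'.le))
            (fun i => by have := hTmono s0 s h i; omega) hF.symm
          refine ⟨h1.symm, fun i => ?_⟩
          have := h2 i
          have := hTlow s hs i
          have := hTlow s0 hs0 i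
          omega
      have h0 : g0 (ω c) = 1 := by
        simp only [hg0]
        by_cases hl : (ω c).1 = true
        · exfalso
          rw [if_pos hl] at hb
          apply hb
          refine ⟨s * L, by positivity, fun n => ?_⟩
          have := hloc n
          unfold mixU at this
          rwa [if_pos hl] at this
        · rw [if_neg hl] at hb ⊢
          refine ind_of_true ⟨hb, s * L, hsL s hs, heq.1, fun n => ?_⟩
          have := hloc n
          unfold mixU at this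
          rwa [if_neg hl] at this
      have h1 : ∀ i, g i (ω (e i)) = 1 := by
        intro i
        simp only [hg]
        split_ifs with hl
        · refine ind_of_true fun hU => ?_
          apply hsurv (n0 - ((i : ℕ) : ℤ))
          refine ⟨?_, (hin s hs i).2⟩
          have hTi := heq.2 i
          simp only [hT] at hTi
          refine mem_step (c := e i) ((floor_eq_of_mul A.Kpos hTi).trans (he i)) ?_
          unfold mixU
          rw [if_pos hl]
          refine A.cell _ _ _ ?_ hU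
          have := floor_shift ((e i : ℕ) : ℤ) _ hTi
          push_cast at this
          exact this.symm
        · rfl
      rw [h0]; simp [h1]
    · refine hprod.trans_le ?_
      simp only [hga, Finset.prod_const, Finset.card_univ, Fintype.card_fin]
      gcongr

end Crest.Agent.H0141
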