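import Crest.Agent.H0141.Avg

set_option autoImplicit false

namespace Crest.Agent.H0141

open Set

/-- a random subset of the unit interval with finite resolution and exact marginal `η0` -/
structure Str (η0 : ℝ) where
  Ω : Type
  [fin : Fintype Ω]
  [ne : Nonempty Ω]
  K : ℕ
  Kpos : 0 < K
  U : Ω → Set ℝ
  cell : ∀ (ω : Ω) (u v : ℝ), ⌊u * K⌋ = ⌊v * K⌋ → u ∈ U ω → v ∈ U ω
  marg : ∀ u ∈ Ico (0 : ℝ) 1, avg (fun ω => ind (u ∈ U ω)) = η0

variable {η0 : ℝ}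

instance (S : Str η0) : Fintype S.Ω := S.fin
instance (S : Str η0) : Nonempty S.Ω := S.ne

def Str.surv (S : Str η0) (q : ℝ) (ω : S.Ω) (x s : ℝ) : Prop :=
  ∀ n : ℤ, ¬ (x + s * q ^ n ∈ S.U ω ∧ x + s * q ^ n < 1)

def Str.alive (S : Str η0) (q : ℝ) (ω : S.Ω) (x : ℝ) : Prop :=
  ∃ s, 0 < s ∧ S.surv q ω x s

def Str.Fail (S : Str η0) (q : ℝ) (X : Set ℝ) (f : ℝ) : Prop :=
  ∀ x ∈ Ico (0 : ℝ) 1, x ∉ X → avg (fun ω => ind (S.alive q ω x)) ≤ f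

def Str.Chain (S : Str η0) (q : ℝ) (X : Set ℝ) (β : ℝ) (B : ℕ) (ρ : ℝ) : Prop :=
  ∀ x ∈ Ico (0 : ℝ) 1, x ∉ X → ∀ σ : ℝ, 0 < σ → ∃ (Bad : S.Ω → Prop) (F : ℝ → ℕ),
    MonotoneOn F (Ico σ (σ / q)) ∧ (∀ s ∈ Ico σ (σ / q), F s ≤ B) ∧
    avg (fun ω => ind (Bad ω)) ≤ β ∧
    ∀ v, avg (fun ω => ind (¬ Bad ω ∧ ∃ s ∈ Ico σ (σ / q), F s = v ∧ S.surv q ω x s)) ≤ ρ

/-- one subdivision step -/
def mixU (A S : Str η0) (p : Bool × A.Ω × S.Ω) (u : ℝ) : Prop :=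
  if p.1 = true then u ∈ A.U p.2.1 else u ∈ S.U p.2.2

lemma ind_mixU (A S : Str η0) (p : Bool × A.Ω × S.Ω) (u : ℝ) :
    ind (mixU A S p u) = if p.1 = true then ind (u ∈ A.U p.2.1) else ind (u ∈ S.U p.2.2) := by
  unfold mixU; split_ifs <;> rfl

lemma exists_cell {L : ℕ} (hL : 0 < L) {u : ℝ} (hu : u ∈ Ico (0 : ℝ) 1) :
    ∃ c : Fin L, ⌊u * L⌋ = ((c : ℕ) : ℤ) := by
  have hL' : (0 : ℝ) < L := by exact_mod_cast hL
  have h0 : 0 ≤ ⌊u * L⌋ := Int.floor_nonneg.2 (mul_nonneg hu.1 hL'.le)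
  have h1 : ⌊u * L⌋ < L := by
    rw [Int.floor_lt]; push_cast; nlinarith [hu.2]
  refine ⟨⟨⌊u * L⌋.toNat, by omega⟩, ?_⟩
  simp only
  omega

lemma frac_mem {L : ℕ} {u : ℝ} {c : ℕ} (h : ⌊u * L⌋ = (c : ℤ)) : u * L - c ∈ Ico (0 : ℝ) 1 := by
  have h1 := Int.floor_le (u * L)
  have h2 := Int.lt_floor_add_one (u * L)
  rw [h] at h1 h2
  push_cast at h1 h2
  constructor <;> linarith

noncomputable def step (L : ℕ) (hL : 0 < L) (A S : Str η0) : Str η0 where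
  Ω := Fin L → Bool × A.Ω × S.Ω
  K := L * (A.K * S.K)
  Kpos := Nat.mul_pos hL (Nat.mul_pos A.Kpos S.Kpos)
  U := fun ω => {u | ∃ c : Fin L, ⌊u * L⌋ = ((c : ℕ) : ℤ) ∧ mixU A S (ω c) (u * L - (c : ℕ))}
  cell := by
    rintro ω u v h ⟨c, hc, hm⟩
    have h' : ⌊u * L * (A.K * S.K : ℕ)⌋ = ⌊v * L * (A.K * S.K : ℕ)⌋ := by
      push_cast at h ⊢; simpa only [mul_assoc] using h
    have hL' := floor_eq_of_mul (Nat.mul_pos A.Kpos S.Kpos) h'
    refine ⟨c, hL' ▸ hc, ?_⟩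
    have hs := floor_shift ((c : ℕ) : ℤ) _ h'
    unfold mixU at hm ⊢
    split_ifs at hm ⊢ with hb
    · refine A.cell _ _ _ ?_ hm
      apply floor_eq_of_mul S.Kpos
      push_cast at hs ⊢; simpa only [mul_assoc] using hs
    · refine S.cell _ _ _ ?_ hm
      apply floor_eq_of_mul A.Kpos
      push_cast at hs ⊢; simpa only [mul_assoc, mul_comm (S.K : ℝ) (A.K : ℝ)] using hs
  marg := by
    intro u hu
    obtain ⟨c, hc⟩ := exists_cell hL hu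
    have h1 : ∀ ω : Fin L → Bool × A.Ω × S.Ω,
        ind (u ∈ {u : ℝ | ∃ c : Fin L, ⌊u * L⌋ = ((c : ℕ) : ℤ) ∧ mixU A S (ω c) (u * L - (c : ℕ))})
          = ind (mixU A S (ω c) (u * L - (c : ℕ))) := by
      intro ω
      congr 1
      apply propext
      constructor
      · rintro ⟨c', hc', hm⟩
        have : c' = c := by
          apply Fin.ext
          have := hc'.symm.trans hc
          exact_mod_cast this
        exact this ▸ hm
      · intro hm; exact ⟨c, hc, hm⟩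
    simp_rw [h1]
    rw [avg_pi_eval c (fun p => ind (mixU A S p (u * L - (c : ℕ))))]
    simp_rw [ind_mixU]
    rw [avg_mix (fun a => ind (u * L - (c : ℕ) ∈ A.U a)) (fun b => ind (u * L - (c : ℕ) ∈ S.U b)),
      A.marg _ (frac_mem hc), S.marg _ (frac_mem hc)]
    ring

lemma mem_step {L : ℕ} {hL : 0 < L} {A S : Str η0} {ω : (step L hL A S).Ω} {u : ℝ} {c : Fin L}
    (hc : ⌊u * L⌋ = ((c : ℕ) : ℤ)) (hm : mixU A S (ω c) (u * L - (c : ℕ))) :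
    u ∈ (step L hL A S).U ω := ⟨c, hc, hm⟩

/-- locality -/
lemma step_local {L : ℕ} {hL : 0 < L} {A S : Str η0} {q : ℝ} (hq : 0 < q)
    {ω : (step L hL A S).Ω} {x s : ℝ} (hs : 0 < s) {c : Fin L} (hc : ⌊x * L⌋ = ((c : ℕ) : ℤ))
    (h : (step L hL A S).surv q ω x s) (n : ℤ) :
    ¬ (mixU A S (ω c) ((x * L - (c : ℕ)) + s * L * q ^ n) ∧ (x * L - (c : ℕ)) + s * L * q ^ n < 1) := by
  rintro ⟨hm, hlt⟩
  have hL' : (0 : ℝ) < L := by exact_mod_cast hL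
  have hx := frac_mem hc
  have hpos : 0 < s * L * q ^ n := by positivity
  have e : (x + s * q ^ n) * L - (c : ℕ) = (x * L - (c : ℕ)) + s * L * q ^ n := by ring
  apply h n
  constructor
  · refine mem_step (c := c) ?_ (e ▸ hm)
    rw [Int.floor_eq_iff]
    push_cast
    constructor <;> linarith [hx.1]
  · have hcL : ((c : ℕ) : ℝ) + 1 ≤ L := by exact_mod_cast c.2
    have : (x + s * q ^ n) * L < 1 * L := by linarith
    exact lt_of_mul_lt_mul_right this hL'.le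

lemma chain_base (S : Str η0) (q : ℝ) : S.Chain q ∅ 0 0 1 := by
  intro x _ _ σ _
  refine ⟨fun _ => False, fun _ => 0, monotoneOn_const, fun _ _ => le_rfl, ?_, ?_⟩
  · simp only [ind_of_false not_false]; rw [avg_const]
  · intro v
    calc _ ≤ avg (fun _ : S.Ω => (1 : ℝ)) := avg_mono fun ω => ind_le_one _
      _ = 1 := avg_const 1

lemma exists_norm {q : ℝ} (hq : q ∈ Ioo (0 : ℝ) 1) {s : ℝ} (hs : 0 < s) :
    ∃ m : ℤ, s * q ^ m ∈ Ico 1 (1 / q) := by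
  have h1 : 1 < q⁻¹ := one_lt_inv₀ hq.1 |>.2 hq.2
  obtain ⟨m, hm1, hm2⟩ := exists_mem_Ico_zpow hs h1
  have hq0 := hq.1
  have hp : 0 < q ^ m := zpow_pos hq0 m
  rw [inv_zpow] at hm1 hm2
  refine ⟨m, ?_, ?_⟩
  · rw [inv_le_iff_one_le_mul₀ hp] at hm1; exact hm1
  · rw [zpow_add_one₀ hq0.ne'] at hm2
    rw [lt_div_iff₀ hq0]
    have h3 : s * (q ^ m * q) < (q ^ m * q)⁻¹ * (q ^ m * q) :=
      mul_lt_mul_of_pos_right hm2 (mul_pos hp hq0)
    rw [inv_mul_cancel₀ (mul_pos hp hq0).ne'] at h3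
    linarith

lemma fail_of_chain {S : Str η0} {q : ℝ} (hq : q ∈ Ioo (0 : ℝ) 1) {X : Set ℝ} {β ρ : ℝ} {B : ℕ}
    (h : S.Chain q X β B ρ) : S.Fail q X (β + (B + 1) * ρ) := by
  intro x hx hX
  obtain ⟨Bad, F, -, hB, hβ, hρ⟩ := h x hx hX 1 one_pos
  have key : ∀ ω, ind (S.alive q ω x) ≤ ind (Bad ω) +
      ∑ v ∈ Finset.range (B + 1), ind (¬ Bad ω ∧ ∃ s ∈ Ico 1 (1 / q), F s = v ∧ S.surv q ω x s) := by
    intro ω
    have hnn : 0 ≤ ∑ v ∈ Finset.range (B + 1),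
        ind (¬ Bad ω ∧ ∃ s ∈ Ico 1 (1 / q), F s = v ∧ S.surv q ω x s) :=
      Finset.sum_nonneg fun v _ => ind_nonneg _
    apply ind_le_of (add_nonneg (ind_nonneg _) hnn)
    rintro ⟨s, hs, hsurv⟩
    by_cases hb : Bad ω
    · rw [ind_of_true hb]; linarith
    · obtain ⟨m, hm⟩ := exists_norm hq hs
      have hsurv' : S.surv q ω x (s * q ^ m) := by
        intro n
        have := hsurv (m + n)
        rwa [zpow_add₀ hq.1.ne', ← mul_assoc] at this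
      have h1 : ind (¬ Bad ω ∧ ∃ s' ∈ Ico 1 (1 / q), F s' = F (s * q ^ m) ∧ S.surv q ω x s') = 1 :=
        ind_of_true ⟨hb, _, hm, rfl, hsurv'⟩
      have h2 := Finset.single_le_sum (f := fun v =>
        ind (¬ Bad ω ∧ ∃ s ∈ Ico 1 (1 / q), F s = v ∧ S.surv q ω x s))
        (fun v _ => ind_nonneg _) (Finset.mem_range.2 (Nat.lt_succ_of_le (hB _ hm)))
      have := ind_nonneg (Bad ω)
      linarith
  refine (avg_mono key).trans ?_
  rw [avg_add, avg_sum]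
  have := Finset.sum_le_sum (s := Finset.range (B + 1)) fun v _ => hρ v
  simp only [Finset.sum_const, Finset.card_range, nsmul_eq_mul] at this
  push_cast at this
  linarith

end Crest.Agent.H0141
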